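import Vale.Agent.P237.Quant.TailData.N38.tailN38P0Part0
import Vale.Agent.P237.Quant.TailData.N38.tailN38P0Part1
import Vale.Agent.P237.Quant.TailData.N38.tailN38P0Part2
import Vale.Agent.P237.Quant.TailData.N38.tailN38P0Part3
import Vale.Agent.P237.Quant.TailData.N38.tailN38P0Part4
import Vale.Agent.P237.Quant.TailData.N38.tailN38P0Part5

/-!
Tail calibration tailN38P0 in dimension 38. The check. Generated data, checked by the kernel.
-/

set_option maxRecDepth 100000
set_option linter.all false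

namespace Vale.Agent.P237.Quant.TailData

open TailCert


/-- The calibration. -/
noncomputable def tailN38P0 : Cfg :=
  tailN38P0Base.withIvals (List.flatten [tailN38P0L0, tailN38P0L1, tailN38P0L2, tailN38P0L3, tailN38P0L4, tailN38P0L5, tailN38P0L6, tailN38P0L7, tailN38P0L8, tailN38P0L9, tailN38P0L10, tailN38P0L11, tailN38P0L12, tailN38P0L13, tailN38P0L14, tailN38P0L15, tailN38P0L16, tailN38P0L17, tailN38P0L18, tailN38P0L19, tailN38P0L20, tailN38P0L21])

theorem tailN38P0_parts : [tailN38P0L0, tailN38P0L1, tailN38P0L2, tailN38P0L3, tailN38P0L4, tailN38P0L5, tailN38P0L6, tailN38P0L7, tailN38P0L8, tailN38P0L9, tailN38P0L10, tailN38P0L11, tailN38P0L12, tailN38P0L13, tailN38P0L14, tailN38P0L15, tailN38P0L16, tailN38P0L17, tailN38P0L18, tailN38P0L19, tailN38P0L20, tailN38P0L21].Forall fun l => tailN38P0Base.partUsed tailN38P0Used l = true := by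
  simp only [List.forall_cons, List.Forall]
  exact ⟨tailN38P0L0_ok, tailN38P0L1_ok, tailN38P0L2_ok, tailN38P0L3_ok, tailN38P0L4_ok, tailN38P0L5_ok, tailN38P0L6_ok, tailN38P0L7_ok, tailN38P0L8_ok, tailN38P0L9_ok, tailN38P0L10_ok, tailN38P0L11_ok, tailN38P0L12_ok, tailN38P0L13_ok, tailN38P0L14_ok, tailN38P0L15_ok, tailN38P0L16_ok, tailN38P0L17_ok, tailN38P0L18_ok, tailN38P0L19_ok, tailN38P0L20_ok, tailN38P0L21_ok⟩

theorem tailN38P0_check : tailN38P0.check = true :=
  Cfg.check_of_parts (by decide +kernel) tailN38P0_parts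

end Vale.Agent.P237.Quant.TailData
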